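import Vale.Agent.P123.Core

open ContinuousLinearMap MeasureTheory intervalIntegral Set ComplexConjugate
open scoped Interval

namespace Vale.Agent.P123

variable {F : Type*} [NormedAddCommGroup F] [InnerProductSpace ℂ F] [FiniteDimensional ℂ F]

/-- A closed polygon with outward normals `nrm`, keeping the forms `⟪x, A x⟫` strictly on its
inner side, and winding once around the eigenvalues of `A`. -/
structure Contour (A : F →L[ℂ] F) where
  num : ℕ
  vtx : ℕ → ℂ
  nrm : ℕ → ℂ
  len : ℕ → ℝ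
  len_nonneg : ∀ j, 0 ≤ len j
  closed : vtx num = vtx 0
  step : ∀ j, vtx (j + 1) - vtx j = Complex.I * nrm j * (len j : ℂ)
  sep : ∀ j, ∀ t ∈ Icc (0 : ℝ) 1, ∀ x : F, ‖x‖ = 1 →
    (conj (nrm j) * inner ℂ x (A x)).re
      < (conj (nrm j) * (vtx j + (t : ℂ) * (vtx (j + 1) - vtx j))).re
  wind : ∀ lam : ℂ, (∃ x : F, ‖x‖ = 1 ∧ A x = lam • x) →
    ∑ j ∈ Finset.range num, ∫ t in (0 : ℝ)..1,
      (vtx (j + 1) - vtx j) / (vtx j + (t : ℂ) * (vtx (j + 1) - vtx j) - lam)
        = 2 * Real.pi * Complex.I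

namespace Contour

variable {A : F →L[ℂ] F} (Γ : Contour A)

noncomputable def pt (j : ℕ) (t : ℝ) : ℂ := Γ.vtx j + (t : ℂ) * (Γ.vtx (j + 1) - Γ.vtx j)

noncomputable def res (j : ℕ) (t : ℝ) : F →L[ℂ] F :=
  Ring.inverse (Γ.pt j t • (1 : F →L[ℂ] F) - A)

noncomputable def coef (j : ℕ) : ℂ := (Γ.vtx (j + 1) - Γ.vtx j) / (2 * Real.pi * Complex.I)

noncomputable def dens (j : ℕ) (t : ℝ) : F →L[ℂ] F := Γ.coef j • Γ.res j t

noncomputable def op (φ : ℂ → ℂ) : F →L[ℂ] F :=
  ∑ j ∈ Finset.range Γ.num, ∫ t in (0 : ℝ)..1, φ (Γ.pt j t) • Γ.dens j t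

lemma isUnit_sub (j : ℕ) {t : ℝ} (ht : t ∈ Icc (0 : ℝ) 1) :
    IsUnit (Γ.pt j t • (1 : F →L[ℂ] F) - A) := by
  have : FiniteDimensional ℂ F := inferInstance
  rw [ContinuousLinearMap.isUnit_iff_bijective]
  have inj : Function.Injective (Γ.pt j t • (1 : F →L[ℂ] F) - A) := by
    rw [injective_iff_map_eq_zero]
    intro v hv
    by_contra hne
    set x : F := (‖v‖⁻¹ : ℂ) • v with hx
    have hxn : ‖x‖ = 1 := norm_smul_inv_norm hne
    have hAx : A x = Γ.pt j t • x := by
      have : (Γ.pt j t • (1 : F →L[ℂ] F) - A) x = 0 := by rw [hx, map_smul, hv, smul_zero]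
      exact (sub_eq_zero.1 (by simpa using this)).symm
    have := Γ.sep j t ht x hxn
    rw [hAx, inner_smul_right, inner_self_eq_norm_sq_to_K, hxn] at this
    simp [pt] at this
  exact ⟨inj, LinearMap.injective_iff_surjective
    (f := (Γ.pt j t • (1 : F →L[ℂ] F) - A).toLinearMap) |>.1 inj⟩

lemma res_eq (j : ℕ) {t : ℝ} (ht : t ∈ Icc (0 : ℝ) 1) :
    Γ.pt j t • Γ.res j t = 1 + A * Γ.res j t := by
  have h := Ring.mul_inverse_cancel _ (Γ.isUnit_sub j ht)
  rw [sub_mul, smul_mul_assoc, one_mul, sub_eq_iff_eq_add] at h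
  exact h

lemma continuous_pt (j : ℕ) : Continuous (Γ.pt j) := by unfold pt; fun_prop

lemma contOn_dens (j : ℕ) : ContinuousOn (Γ.dens j) (Icc (0 : ℝ) 1) := by
  intro t ht
  obtain ⟨u, hu⟩ := Γ.isUnit_sub j ht
  have h1 : ContinuousAt (fun t => Γ.pt j t • (1 : F →L[ℂ] F) - A) t := by
    have := Γ.continuous_pt j
    fun_prop
  have h2 : ContinuousAt Ring.inverse (Γ.pt j t • (1 : F →L[ℂ] F) - A) := by
    rw [← hu]; exact NormedRing.inverse_continuousAt u
  exact ((ContinuousAt.comp (x := t) (f := fun t => Γ.pt j t • (1 : F →L[ℂ] F) - A) h2 h1).const_smul (Γ.coef j)).continuousWithinAt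

lemma integrable {φ : ℂ → ℂ} (hφ : Continuous φ) (j : ℕ) :
    IntervalIntegrable (fun t => φ (Γ.pt j t) • Γ.dens j t) volume 0 1 := by
  refine ContinuousOn.intervalIntegrable ?_
  rw [uIcc_of_le zero_le_one]
  exact (hφ.comp (Γ.continuous_pt j)).continuousOn.smul (Γ.contOn_dens j)

lemma op_add {φ ψ : ℂ → ℂ} (hφ : Continuous φ) (hψ : Continuous ψ) :
    Γ.op (fun z => φ z + ψ z) = Γ.op φ + Γ.op ψ := by
  unfold op
  rw [← Finset.sum_add_distrib]
  refine Finset.sum_congr rfl fun j _ => ?_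
  simp only [add_smul]
  exact intervalIntegral.integral_add (Γ.integrable hφ j) (Γ.integrable hψ j)

lemma op_const_mul (c : ℂ) (φ : ℂ → ℂ) : Γ.op (fun z => c * φ z) = c • Γ.op φ := by
  unfold op
  simp only [mul_smul, intervalIntegral.integral_smul, Finset.smul_sum]

lemma integral_pow (j k : ℕ) : ∫ t in (0 : ℝ)..1, Γ.pt j t ^ k * (Γ.vtx (j + 1) - Γ.vtx j)
    = (Γ.vtx (j + 1) ^ (k + 1) - Γ.vtx j ^ (k + 1)) / (k + 1) := by
  have hd : ∀ t ∈ [[(0 : ℝ), 1]], HasDerivAt (fun t => Γ.pt j t ^ (k + 1) / (k + 1))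
      (Γ.pt j t ^ k * (Γ.vtx (j + 1) - Γ.vtx j)) t := by
    intro t _
    have h1 : HasDerivAt (Γ.pt j) (Γ.vtx (j + 1) - Γ.vtx j) t := by
      unfold pt
      simpa using ((hasDerivAt_id t).ofReal_comp.mul_const (Γ.vtx (j + 1) - Γ.vtx j)).const_add (Γ.vtx j)
    refine ((h1.pow (k + 1)).div_const ((k : ℂ) + 1)).congr_deriv ?_
    have : (k : ℂ) + 1 ≠ 0 := Nat.cast_add_one_ne_zero k
    simp only [Nat.add_sub_cancel]
    push_cast
    field_simp
  rw [integral_eq_sub_of_hasDerivAt hd]
  · simp [pt, sub_div]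
  · exact ((Γ.continuous_pt j).pow k |>.mul continuous_const).intervalIntegrable _ _

lemma sum_integral_pow (k : ℕ) :
    ∑ j ∈ Finset.range Γ.num, ∫ t in (0 : ℝ)..1, Γ.pt j t ^ k * Γ.coef j = 0 := by
  have : ∀ j, ∫ t in (0 : ℝ)..1, Γ.pt j t ^ k * Γ.coef j
      = (Γ.vtx (j + 1) ^ (k + 1) / (k + 1) - Γ.vtx j ^ (k + 1) / (k + 1))
        / (2 * Real.pi * Complex.I) := by
    intro j
    rw [← sub_div, ← Γ.integral_pow j k, ← intervalIntegral.integral_div]
    simp [coef, mul_div_assoc]
  simp only [this, ← Finset.sum_div]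
  rw [Finset.sum_range_sub (fun j => Γ.vtx j ^ (k + 1) / (k + 1)), Γ.closed]
  simp

lemma integral_apply (f : ℝ → F →L[ℂ] F) (h : IntervalIntegrable f volume 0 1) (v : F) :
    (∫ t in (0 : ℝ)..1, f t) v = ∫ t in (0 : ℝ)..1, f t v :=
  ContinuousLinearMap.intervalIntegral_apply h v

lemma pt_sub_ne (j : ℕ) {t : ℝ} (ht : t ∈ Icc (0 : ℝ) 1) {lam : ℂ}
    (hl : ∃ x : F, ‖x‖ = 1 ∧ A x = lam • x) : Γ.pt j t - lam ≠ 0 := by
  obtain ⟨x, hx, hAx⟩ := hl
  intro h0
  have := Γ.sep j t ht x hx
  rw [hAx, inner_smul_right, inner_self_eq_norm_sq_to_K, hx] at this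
  rw [sub_eq_zero] at h0
  simp [← h0, pt] at this

lemma sum_inv_pow {lam : ℂ} (hl : ∃ x : F, ‖x‖ = 1 ∧ A x = lam • x) (m : ℕ) :
    ∑ j ∈ Finset.range Γ.num, ∫ t in (0 : ℝ)..1, Γ.coef j * ((Γ.pt j t - lam)⁻¹) ^ (m + 1)
      = if m = 0 then 1 else 0 := by
  rcases m with _ | m
  · have := Γ.wind lam hl
    have h2 : (2 * (Real.pi : ℂ) * Complex.I) ≠ 0 := Complex.two_pi_I_ne_zero
    simp only [zero_add, pow_one, if_pos]
    rw [← div_self h2]
    nth_rewrite 1 [← this]
    rw [Finset.sum_div]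
    refine Finset.sum_congr rfl fun j _ => ?_
    rw [← intervalIntegral.integral_div]
    refine intervalIntegral.integral_congr fun t _ => ?_
    simp [coef, pt, div_eq_mul_inv]
    ring
  · rw [if_neg (by omega)]
    have key : ∀ j, ∫ t in (0 : ℝ)..1, Γ.coef j * ((Γ.pt j t - lam)⁻¹) ^ (m + 2)
        = (-((Γ.vtx (j + 1) - lam)⁻¹) ^ (m + 1) / (m + 1)
            - -((Γ.vtx j - lam)⁻¹) ^ (m + 1) / (m + 1)) / (2 * Real.pi * Complex.I) := by
      intro j
      have hd : ∀ t ∈ [[(0 : ℝ), 1]],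
          HasDerivAt (fun t => -((Γ.pt j t - lam)⁻¹) ^ (m + 1) / (m + 1))
            ((Γ.vtx (j + 1) - Γ.vtx j) * ((Γ.pt j t - lam)⁻¹) ^ (m + 2)) t := by
        intro t ht
        rw [uIcc_of_le zero_le_one] at ht
        have hne := Γ.pt_sub_ne j ht hl
        have h1 : HasDerivAt (fun t => Γ.pt j t - lam) (Γ.vtx (j + 1) - Γ.vtx j) t := by
          unfold pt
          simpa using (((hasDerivAt_id t).ofReal_comp.mul_const
            (Γ.vtx (j + 1) - Γ.vtx j)).const_add (Γ.vtx j)).sub_const lam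
        refine (((h1.inv hne).pow (m + 1)).neg.div_const ((m : ℂ) + 1)).congr_deriv ?_
        have : (m : ℂ) + 1 ≠ 0 := Nat.cast_add_one_ne_zero m
        simp only [inv_pow, Pi.inv_apply, Nat.add_sub_cancel]
        push_cast
        field_simp
        ring
      have hi : IntervalIntegrable
          (fun t => (Γ.vtx (j + 1) - Γ.vtx j) * ((Γ.pt j t - lam)⁻¹) ^ (m + 2)) volume 0 1 := by
        refine ContinuousOn.intervalIntegrable ?_
        rw [uIcc_of_le zero_le_one]
        exact continuousOn_const.mul ((((Γ.continuous_pt j).sub continuous_const).continuousOn.inv₀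
          (fun t ht => Γ.pt_sub_ne j ht hl)).pow _)
      have := integral_eq_sub_of_hasDerivAt hd hi
      simp only [coef, div_mul_eq_mul_div, intervalIntegral.integral_div, this]
      simp [pt]
    simp only [key, ← Finset.sum_div]
    rw [Finset.sum_range_sub (fun j => -((Γ.vtx j - lam)⁻¹) ^ (m + 1) / (m + 1)), Γ.closed]
    simp

lemma genEigen_op {lam : ℂ} (hl : ∃ x : F, ‖x‖ = 1 ∧ A x = lam • x) :
    ∀ (k : ℕ) (v : F), ((A - lam • 1) ^ k) v = 0 → ∀ m : ℕ,
      ∑ j ∈ Finset.range Γ.num,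
        ∫ t in (0 : ℝ)..1, ((Γ.pt j t - lam)⁻¹) ^ m • Γ.dens j t v
        = if m = 0 then v else 0 := by
  intro k
  induction k with
  | zero => intro v hv m; simp at hv; simp [hv]
  | succ k ih =>
    intro v hv m
    set B := A - lam • (1 : F →L[ℂ] F) with hB
    have hBv : (B ^ k) (B v) = 0 := by rw [pow_succ] at hv; exact hv
    have hint : ∀ j, ∀ p : ℕ, ∀ w : F, IntervalIntegrable
        (fun t => ((Γ.pt j t - lam)⁻¹) ^ p • Γ.dens j t w) volume 0 1 := by
      intro j p w
      refine ContinuousOn.intervalIntegrable ?_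
      rw [uIcc_of_le zero_le_one]
      exact ((((Γ.continuous_pt j).sub continuous_const).continuousOn.inv₀
        (fun t ht => Γ.pt_sub_ne j ht hl)).pow p).smul ((Γ.contOn_dens j).clm_apply continuousOn_const)
    have e : ∀ j, ∫ t in (0 : ℝ)..1, ((Γ.pt j t - lam)⁻¹) ^ m • Γ.dens j t v
        = (∫ t in (0 : ℝ)..1, Γ.coef j * ((Γ.pt j t - lam)⁻¹) ^ (m + 1)) • v
          + ∫ t in (0 : ℝ)..1, ((Γ.pt j t - lam)⁻¹) ^ (m + 1) • Γ.dens j t (B v) := by
      intro j
      rw [← intervalIntegral.integral_smul_const, ← intervalIntegral.integral_add]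
      · refine intervalIntegral.integral_congr fun t ht => ?_
        rw [uIcc_of_le zero_le_one] at ht
        have hne := Γ.pt_sub_ne j ht hl
        have hr : Γ.res j t (Γ.pt j t • v - A v) = v := by
          have := congrArg (fun L : F →L[ℂ] F => L v)
            (Ring.inverse_mul_cancel _ (Γ.isUnit_sub j ht))
          simpa [res] using this
        have hBv' : (Γ.pt j t - lam) • Γ.res j t v = v + Γ.res j t (B v) := by
          conv_rhs => arg 1; rw [← hr]
          simp [hB, map_sub, sub_smul]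
        have : Γ.res j t v = (Γ.pt j t - lam)⁻¹ • (v + Γ.res j t (B v)) := by
          rw [← hBv', inv_smul_smul₀ hne]
        simp only [dens, ContinuousLinearMap.smul_apply]
        rw [this, smul_add, smul_add, smul_add, smul_smul, smul_smul, smul_smul, smul_smul,
          smul_smul]
        congr 2 <;> ring
      · refine ContinuousOn.intervalIntegrable ?_
        rw [uIcc_of_le zero_le_one]
        exact (continuousOn_const.mul ((((Γ.continuous_pt j).sub continuous_const).continuousOn.inv₀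
          (fun t ht => Γ.pt_sub_ne j ht hl)).pow _)).smul continuousOn_const
      · exact hint j (m + 1) (B v)
    simp only [e, Finset.sum_add_distrib, ← Finset.sum_smul]
    rw [Γ.sum_inv_pow hl m, ih (B v) hBv (m + 1)]
    simp

lemma op_one : Γ.op (fun _ => 1) = 1 := by
  have key : ∀ v : F, v ∈ (⊤ : Submodule ℂ F) → Γ.op (fun _ => 1) v = v := by
    intro v hv
    rw [← Module.End.iSup_maxGenEigenspace_eq_top A.toLinearMap] at hv
    induction hv using Submodule.iSup_induction' with
    | zero => simp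
    | add a b _ _ ha hb => simp [ha, hb]
    | mem lam v hv =>
      rcases eq_or_ne v 0 with h | h
      · simp [h]
      have hev : Module.End.HasEigenvalue A.toLinearMap lam := by
        obtain ⟨k, hk⟩ := (Module.End.mem_maxGenEigenspace _ _ _).1 hv
        refine Module.End.hasEigenvalue_of_hasGenEigenvalue (k := k) ?_
        show Module.End.genEigenspace A.toLinearMap lam (k : ℕ∞) ≠ ⊥
        rw [ne_eq, Submodule.eq_bot_iff]
        push Not
        exact ⟨v, Module.End.mem_genEigenspace_nat.2 hk, h⟩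
      obtain ⟨w, hw⟩ := hev.exists_hasEigenvector
      have hl : ∃ x : F, ‖x‖ = 1 ∧ A x = lam • x := by
        refine ⟨(‖w‖⁻¹ : ℂ) • w, norm_smul_inv_norm hw.2, ?_⟩
        have h2 : A w = lam • w := hw.apply_eq_smul
        rw [map_smul, h2, smul_comm]
      obtain ⟨k, hk⟩ := (Module.End.mem_maxGenEigenspace _ _ _).1 hv
      have hk' : ((A - lam • 1) ^ k) v = 0 := by
        rw [← hk]
        have : ((A - lam • (1 : F →L[ℂ] F)) ^ k).toLinearMap = (A.toLinearMap - lam • 1) ^ k := by
          simp [ContinuousLinearMap.toLinearMap_pow]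
        exact congrArg (fun L : F →ₗ[ℂ] F => L v) this
      have := Γ.genEigen_op hl k v hk' 0
      simp only [pow_zero, one_smul, if_pos] at this
      simp only [op, one_smul, ContinuousLinearMap.sum_apply]
      conv_rhs => rw [← this]
      refine Finset.sum_congr rfl fun j _ => ?_
      refine ContinuousLinearMap.intervalIntegral_apply ?_ v
      simpa using Γ.integrable (φ := fun _ => 1) continuous_const j
  ext v
  simpa using key v Submodule.mem_top

lemma op_pow (k : ℕ) : Γ.op (fun z => z ^ k) = A ^ k := by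
  induction k with
  | zero => simpa using Γ.op_one
  | succ k ih =>
    rw [pow_succ' A, ← ih]
    unfold op
    rw [Finset.mul_sum]
    have e : ∀ j, ∫ t in (0 : ℝ)..1, Γ.pt j t ^ (k + 1) • Γ.dens j t
        = (∫ t in (0 : ℝ)..1, Γ.pt j t ^ k * Γ.coef j) • (1 : F →L[ℂ] F)
          + A * ∫ t in (0 : ℝ)..1, Γ.pt j t ^ k • Γ.dens j t := by
      intro j
      have hL : A * (∫ t in (0 : ℝ)..1, Γ.pt j t ^ k • Γ.dens j t)
          = ∫ t in (0 : ℝ)..1, A * (Γ.pt j t ^ k • Γ.dens j t) :=
        ((ContinuousLinearMap.mul ℂ (F →L[ℂ] F) A).intervalIntegral_comp_comm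
          (Γ.integrable (φ := fun z => z ^ k) (continuous_id.pow k) j)).symm
      rw [hL, show (∫ t in (0 : ℝ)..1, Γ.pt j t ^ k * Γ.coef j) • (1 : F →L[ℂ] F)
          = ∫ t in (0 : ℝ)..1, (Γ.pt j t ^ k * Γ.coef j) • (1 : F →L[ℂ] F) from
        (intervalIntegral.integral_smul_const (E := F →L[ℂ] F) (fun t : ℝ => Γ.pt j t ^ k * Γ.coef j) 1).symm, ← intervalIntegral.integral_add]
      · refine intervalIntegral.integral_congr fun t ht => ?_
        rw [uIcc_of_le zero_le_one] at ht
        simp only [dens, mul_smul_comm, pow_succ, mul_smul]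
        rw [smul_comm (Γ.pt j t) (Γ.coef j), Γ.res_eq j ht, smul_add, smul_add]
      · exact (((Γ.continuous_pt j).pow k |>.mul continuous_const).smul
          continuous_const).intervalIntegrable _ _
      · refine ContinuousOn.intervalIntegrable ?_
        rw [uIcc_of_le zero_le_one]
        exact continuousOn_const.mul (((Γ.continuous_pt j).pow k).continuousOn.smul (Γ.contOn_dens j))
    simp only [e, Finset.sum_add_distrib, ← Finset.sum_smul, Γ.sum_integral_pow k, zero_smul,
      zero_add]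

lemma op_eval (Q : Polynomial ℂ) : Γ.op (fun z => Q.eval z) = Polynomial.aeval A Q := by
  induction Q using Polynomial.induction_on' with
  | add p q hp hq =>
    simp only [Polynomial.eval_add]
    rw [Γ.op_add p.continuous q.continuous, hp, hq, map_add]
  | monomial k c =>
    simp only [Polynomial.eval_monomial]
    rw [Γ.op_const_mul, Γ.op_pow, Polynomial.aeval_monomial, Algebra.algebraMap_eq_smul_one,
      smul_mul_assoc, one_mul]

lemma commute_op (φ : ℂ → ℂ) (hφ : Continuous φ) (X : F →L[ℂ] F) (hX : Commute X A) :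
    Commute X (Γ.op φ) := by
  unfold op
  refine Commute.sum_right _ _ _ fun j _ => ?_
  show X * _ = _ * X
  calc X * ∫ t in (0 : ℝ)..1, φ (Γ.pt j t) • Γ.dens j t
      = ∫ t in (0 : ℝ)..1, X * (φ (Γ.pt j t) • Γ.dens j t) :=
        ((ContinuousLinearMap.mul ℂ (F →L[ℂ] F) X).intervalIntegral_comp_comm
          (Γ.integrable hφ j)).symm
    _ = ∫ t in (0 : ℝ)..1, (φ (Γ.pt j t) • Γ.dens j t) * X := by
        refine intervalIntegral.integral_congr fun t ht => ?_
        rw [uIcc_of_le zero_le_one] at ht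
        have h1 : Commute X (Γ.pt j t • (1 : F →L[ℂ] F) - A) :=
          ((Commute.one_right X).smul_right _).sub_right hX
        obtain ⟨w, hw⟩ := Γ.isUnit_sub j ht
        have h2 : Commute X (Γ.res j t) := by
          rw [res, ← hw, Ring.inverse_unit]
          exact Commute.units_inv_right (hw ▸ h1)
        exact ((h2.smul_right _).smul_right _).eq
    _ = _ := ((ContinuousLinearMap.mul ℂ (F →L[ℂ] F)).flip X).intervalIntegral_comp_comm
          (Γ.integrable hφ j)

lemma op_bound : ∃ B : ℝ, ∀ φ : ℂ → ℂ,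
    (∀ j < Γ.num, ∀ t ∈ Icc (0 : ℝ) 1, ‖φ (Γ.pt j t)‖ ≤ 1) → ‖Γ.op φ‖ ≤ B := by
  choose C hC using fun j => (isCompact_Icc (a := (0 : ℝ)) (b := 1)).exists_bound_of_continuousOn
    (Γ.contOn_dens j)
  refine ⟨∑ j ∈ Finset.range Γ.num, C j, fun φ hφ => (norm_sum_le _ _).trans (Finset.sum_le_sum ?_)⟩
  intro j hj
  refine le_trans (intervalIntegral.norm_integral_le_of_norm_le_const (C := C j) ?_) (by simp)
  intro t ht
  rw [uIoc_of_le zero_le_one] at ht
  have ht' : t ∈ Icc (0 : ℝ) 1 := ⟨ht.1.le, ht.2⟩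
  rw [norm_smul]
  have := hφ j (Finset.mem_range.1 hj) t ht'
  have := hC j t ht'
  calc ‖φ (Γ.pt j t)‖ * ‖Γ.dens j t‖ ≤ 1 * C j := by gcongr
    _ = C j := one_mul _

lemma dens_nonneg (j : ℕ) {t : ℝ} (ht : t ∈ Icc (0 : ℝ) 1) (v : F) :
    0 ≤ (inner ℂ v (Γ.dens j t v)).re := by
  set w := Γ.res j t v with hw
  have hv : v = Γ.pt j t • w - A w := by
    have := congrArg (fun L : F →L[ℂ] F => L v) (Ring.mul_inverse_cancel _ (Γ.isUnit_sub j ht))
    simpa [hw, res] using this.symm
  have hc : Γ.coef j = Γ.nrm j * ((Γ.len j / (2 * Real.pi) : ℝ) : ℂ) := by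
    rw [coef, Γ.step]
    push_cast
    field_simp
  rcases eq_or_ne w 0 with h | h
  · simp [dens, ← hw, h]
  set x : F := (‖w‖⁻¹ : ℂ) • w with hx
  have hxn : ‖x‖ = 1 := norm_smul_inv_norm h
  have hwx : w = (‖w‖ : ℂ) • x := by
    rw [hx, smul_smul, mul_inv_cancel₀ (by simpa using h), one_smul]
  have hs := Γ.sep j t ht x hxn
  have hin : inner ℂ v (Γ.dens j t v)
      = ((‖w‖ ^ 2 * (Γ.len j / (2 * Real.pi)) : ℝ) : ℂ)
        * conj (conj (Γ.nrm j) * (Γ.pt j t - inner ℂ x (A x))) := by
    simp only [dens, ContinuousLinearMap.smul_apply, ← hw]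
    generalize ‖w‖ = r at hwx
    rw [hv, hwx, inner_smul_right, hc]
    simp only [map_smul, inner_sub_left, inner_smul_left, inner_smul_right,
      inner_self_eq_norm_sq_to_K, hxn, map_sub, map_mul, Complex.conj_conj, Complex.conj_ofReal,
      inner_conj_symm]
    push_cast
    simp
    ring
  rw [hin, Complex.re_ofReal_mul, Complex.conj_re, mul_sub, Complex.sub_re]
  have := Γ.len_nonneg j
  have : 0 ≤ (conj (Γ.nrm j) * Γ.pt j t).re - (conj (Γ.nrm j) * inner ℂ x (A x)).re := by
    simp only [pt]; linarith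
  positivity

/-- The scalar density of the double-layer potential. -/
noncomputable def form (j : ℕ) (t : ℝ) (u v : F) : ℂ :=
  inner ℂ v (Γ.dens j t u) + inner ℂ (Γ.dens j t v) u

lemma form_self_nonneg (j : ℕ) {t : ℝ} (ht : t ∈ Icc (0 : ℝ) 1) (v : F) :
    0 ≤ (Γ.form j t v v).re := by
  have h := Γ.dens_nonneg j ht v
  simp only [form, Complex.add_re]
  rw [← inner_conj_symm (Γ.dens j t v) v, Complex.conj_re]
  linarith

lemma contOn_form (j : ℕ) (u v : F) :
    ContinuousOn (fun t => Γ.form j t u v) (Icc (0 : ℝ) 1) := by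
  have h := Γ.contOn_dens j
  exact (continuousOn_const.inner (h.clm_apply continuousOn_const)).add
    ((h.clm_apply continuousOn_const).inner continuousOn_const)

noncomputable def total (φ : ℂ → ℂ) (u v : F) : ℂ :=
  ∑ j ∈ Finset.range Γ.num, ∫ t in (0 : ℝ)..1, φ (Γ.pt j t) * Γ.form j t u v

lemma total_eq {φ : ℂ → ℂ} (hφ : Continuous φ) (u v : F) :
    Γ.total φ u v = inner ℂ v (Γ.op φ u) + inner ℂ (Γ.op (fun z => conj (φ z)) v) u := by
  simp only [total, op, ContinuousLinearMap.sum_apply, inner_sum, sum_inner,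
    ← Finset.sum_add_distrib]
  refine Finset.sum_congr rfl fun j _ => ?_
  have hψ : Continuous fun z => conj (φ z) := Complex.continuous_conj.comp hφ
  have i1 := Γ.integrable hφ j
  have i2 := Γ.integrable hψ j
  have c1 : ContinuousOn (fun t => φ (Γ.pt j t) • Γ.dens j t u) (Icc 0 1) :=
    (hφ.comp (Γ.continuous_pt j)).continuousOn.smul ((Γ.contOn_dens j).clm_apply continuousOn_const)
  have c2 : ContinuousOn (fun t => conj (φ (Γ.pt j t)) • Γ.dens j t v) (Icc 0 1) :=
    (hψ.comp (Γ.continuous_pt j)).continuousOn.smul ((Γ.contOn_dens j).clm_apply continuousOn_const)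
  rw [ContinuousLinearMap.intervalIntegral_apply i1, ContinuousLinearMap.intervalIntegral_apply i2]
  simp only [ContinuousLinearMap.smul_apply]
  rw [← inner_conj_symm (∫ t in (0 : ℝ)..1, conj (φ (Γ.pt j t)) • Γ.dens j t v) u]
  have e1 := (innerSL ℂ v).intervalIntegral_comp_comm
    (c1.intervalIntegrable_of_Icc zero_le_one (μ := volume))
  have e2 := (innerSL ℂ u).intervalIntegral_comp_comm
    (c2.intervalIntegrable_of_Icc zero_le_one (μ := volume))
  simp only [innerSL_apply_apply] at e1 e2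
  rw [← e1, ← e2, ← intervalIntegral.intervalIntegral_conj, ← intervalIntegral.integral_add]
  · refine intervalIntegral.integral_congr fun t _ => ?_
    simp only [form, inner_smul_right, map_mul, Complex.conj_conj, inner_conj_symm]
    ring
  · exact ((continuousOn_const.inner c1)).intervalIntegrable_of_Icc zero_le_one
  · exact (Complex.continuous_conj.comp_continuousOn
      (continuousOn_const.inner c2)).intervalIntegrable_of_Icc zero_le_one

lemma total_one (u v : F) : Γ.total (fun _ => 1) u v = 2 * inner ℂ v u := by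
  rw [Γ.total_eq continuous_const]
  simp only [map_one, Γ.op_one]
  simp
  ring

lemma pointwise (j : ℕ) {t : ℝ} (ht : t ∈ Icc (0 : ℝ) 1) (f : ℂ) (hf : ‖f‖ ≤ 1) (n : ℕ)
    (u x y : F) (k : ℝ) :
    0 ≤ k ^ 2 * (Γ.form j t u u).re + (Γ.form j t x x).re + (Γ.form j t y y).re
      + 2 * k * (f ^ n * Γ.form j t u x - f ^ (n + 1) * Γ.form j t u y).re
      - 2 * (f * Γ.form j t x y).re := by
  have h := Γ.form_self_nonneg j ht (((k : ℂ) * f ^ n) • u + (x - conj f • y))
  have qu := Γ.form_self_nonneg j ht u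
  have qy := Γ.form_self_nonneg j ht y
  have hsym : ∀ a b : F, Γ.form j t b a = conj (Γ.form j t a b) := by
    intro a b
    simp only [form, map_add, inner_conj_symm]
    ring
  have expand : (Γ.form j t (((k : ℂ) * f ^ n) • u + (x - conj f • y))
      (((k : ℂ) * f ^ n) • u + (x - conj f • y))).re
      = k ^ 2 * ‖f ^ n‖ ^ 2 * (Γ.form j t u u).re + (Γ.form j t x x).re
        + ‖f‖ ^ 2 * (Γ.form j t y y).re
        + 2 * k * (f ^ n * Γ.form j t u x - f ^ (n + 1) * Γ.form j t u y).re
        - 2 * (f * Γ.form j t x y).re := by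
    have e : Γ.form j t (((k : ℂ) * f ^ n) • u + (x - conj f • y))
        (((k : ℂ) * f ^ n) • u + (x - conj f • y))
        = ((k : ℂ) ^ 2 * (f ^ n * conj (f ^ n))) * Γ.form j t u u + Γ.form j t x x
          + (f * conj f) * Γ.form j t y y
          + ((k : ℂ) * (f ^ n * Γ.form j t u x - f ^ (n + 1) * Γ.form j t u y)
            + conj ((k : ℂ) * (f ^ n * Γ.form j t u x - f ^ (n + 1) * Γ.form j t u y)))
          - (f * Γ.form j t x y + conj (f * Γ.form j t x y)) := by
      simp only [map_sub, map_mul, ← hsym, Complex.conj_ofReal]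
      simp only [form, map_add, map_sub, map_smul, inner_add_left, inner_add_right, inner_sub_left,
        inner_sub_right, inner_smul_left, inner_smul_right, map_mul, Complex.conj_conj,
        Complex.conj_ofReal, map_pow]
      ring
    rw [e, Complex.mul_conj', Complex.mul_conj', Complex.add_conj, Complex.add_conj]
    simp [← Complex.ofReal_pow, ← Complex.ofReal_mul]
    ring
  rw [expand] at h
  have h1 : ‖f ^ n‖ ^ 2 ≤ 1 := pow_le_one₀ (norm_nonneg _) (by rw [norm_pow]; exact pow_le_one₀ (norm_nonneg _) hf)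
  have h2 : ‖f‖ ^ 2 ≤ 1 := pow_le_one₀ (norm_nonneg _) hf
  have := mul_le_mul_of_nonneg_right h2 qy
  have := mul_le_mul_of_nonneg_left (mul_le_mul_of_nonneg_right h1 qu) (sq_nonneg k)
  nlinarith

theorem norm_aeval_le_two (P : Polynomial ℂ)
    (hP : ∀ j < Γ.num, ∀ t ∈ Icc (0 : ℝ) 1, ‖P.eval (Γ.pt j t)‖ ≤ 1) :
    ‖Polynomial.aeval A P‖ ≤ 2 := by
  set T := Polynomial.aeval A P with hTdef
  by_contra hcon
  push Not at hcon
  have : Nontrivial F := by
    by_contra hnt
    rw [not_nontrivial_iff_subsingleton] at hnt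
    have : T = 0 := ContinuousLinearMap.ext fun v => Subsingleton.elim _ _
    rw [this, norm_zero] at hcon
    linarith
  obtain ⟨x, hxs, hxmax⟩ := (isCompact_sphere (0 : F) 1).exists_isMaxOn
    (NormedSpace.sphere_nonempty.2 zero_le_one) T.continuous.norm.continuousOn
  have hx : ‖x‖ = 1 := by simpa using hxs
  set M := ‖T‖ with hMdef
  have hTxM : ‖T x‖ = M := by
    refine le_antisymm (by simpa [hx] using T.le_opNorm x) ?_
    refine T.opNorm_le_bound (norm_nonneg _) fun v => ?_
    rcases eq_or_ne v 0 with h | h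
    · simp [h]
    have h2 : (‖v‖⁻¹ : ℂ) • v ∈ Metric.sphere (0 : F) 1 := by
      rw [mem_sphere_zero_iff_norm]; exact norm_smul_inv_norm h
    have : ‖T ((‖v‖⁻¹ : ℂ) • v)‖ ≤ ‖T x‖ := hxmax h2
    rw [map_smul, norm_smul, norm_inv, Complex.norm_real, norm_norm, inv_mul_le_iff₀ (norm_pos_iff.2 h)] at this
    linarith
  have hM0 : (M : ℂ) ≠ 0 := by exact_mod_cast (by linarith : M ≠ 0)
  have hTTx : adjoint T (T x) = ((M : ℂ) ^ 2) • x := by
    have h1 : ‖adjoint T (T x)‖ ≤ M * M := by
      have := (adjoint T).le_opNorm (T x)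
      rwa [LinearIsometryEquiv.norm_map, hTxM] at this
    have h2 : ‖adjoint T (T x) - ((M : ℂ) ^ 2) • x‖ ^ 2 ≤ 0 := by
      rw [norm_sub_sq (𝕜 := ℂ), inner_smul_right, adjoint_inner_left, inner_self_eq_norm_sq_to_K,
        hTxM, norm_smul, hx, ← Complex.ofReal_pow, Complex.norm_real]
      have : ‖adjoint T (T x)‖ ^ 2 ≤ (M * M) ^ 2 := pow_le_pow_left₀ (norm_nonneg _) h1 2
      simp [← Complex.ofReal_pow, ← Complex.ofReal_mul]
      nlinarith
    exact sub_eq_zero.1 (norm_eq_zero.1 (pow_eq_zero_iff two_ne_zero |>.1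
      (le_antisymm h2 (sq_nonneg _))))
  set y : F := (M : ℂ)⁻¹ • T x with hydef
  have hy : ‖y‖ = 1 := by
    rw [hydef, norm_smul, hTxM, norm_inv, Complex.norm_real, Real.norm_of_nonneg (by linarith),
      inv_mul_cancel₀ (by linarith)]
  have hTx : T x = (M : ℂ) • y := by rw [hydef, smul_smul, mul_inv_cancel₀ hM0, one_smul]
  have hTy : adjoint T y = (M : ℂ) • x := by
    rw [hydef, map_smul, hTTx, smul_smul]
    congr 1
    field_simp
  let G : ℕ → F →L[ℂ] F := fun n => Γ.op (fun z => conj (P.eval z ^ n))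
  let S : ℕ → F →L[ℂ] F := fun n => T ^ n + adjoint (G n)
  have hTn : ∀ n, T ^ n = Γ.op (fun z => P.eval z ^ n) := by
    intro n
    rw [hTdef, ← map_pow, ← Γ.op_eval]
    simp
  have hS : ∀ n u v, inner ℂ v (S n u) = inner ℂ v ((T ^ n) u) + inner ℂ (G n v) u := by
    intro n u v
    simp [S, inner_add_right, adjoint_inner_right]
  have htot : ∀ n u v, Γ.total (fun z => P.eval z ^ n) u v = inner ℂ v (S n u) := by
    intro n u v
    rw [hS, Γ.total_eq (φ := fun z => P.eval z ^ n) (P.continuous.pow n), hTn]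
  obtain ⟨B, hB⟩ := Γ.op_bound
  refine core_contradiction T S G B ?_ hS ?_ ?_ ?_ x y hx hy M hcon hTx hTy
  · intro n
    refine Γ.commute_op _ (Complex.continuous_conj.comp (P.continuous.pow n)) T ?_
    rw [hTdef]
    have := (Commute.all P Polynomial.X).map (Polynomial.aeval A)
    simpa using this
  · intro n u a b ha hb k hk
    let g : ℕ → ℝ → ℝ := fun j t =>
      k ^ 2 * (Γ.form j t u u).re + (Γ.form j t a a).re + (Γ.form j t b b).re
      + 2 * k * (P.eval (Γ.pt j t) ^ n * Γ.form j t u a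
          - P.eval (Γ.pt j t) ^ (n + 1) * Γ.form j t u b).re
      - 2 * (P.eval (Γ.pt j t) * Γ.form j t a b).re
    have hg : 0 ≤ ∑ j ∈ Finset.range Γ.num, ∫ t in (0 : ℝ)..1, g j t :=
      Finset.sum_nonneg fun j hj => intervalIntegral.integral_nonneg zero_le_one fun t ht =>
        Γ.pointwise j ht _ (hP j (Finset.mem_range.1 hj) t ht) n u a b k
    let hc : ℕ → ℝ → ℂ := fun j t =>
      (k : ℂ) ^ 2 * (1 * Γ.form j t u u) + 1 * Γ.form j t a a + 1 * Γ.form j t b b
      + 2 * (k : ℂ) * (P.eval (Γ.pt j t) ^ n * Γ.form j t u a)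
      - 2 * (k : ℂ) * (P.eval (Γ.pt j t) ^ (n + 1) * Γ.form j t u b)
      - 2 * (P.eval (Γ.pt j t) ^ 1 * Γ.form j t a b)
    have hii : ∀ φ : ℂ → ℂ, Continuous φ → ∀ j p q, IntervalIntegrable
        (fun t => φ (Γ.pt j t) * Γ.form j t p q) volume 0 1 := fun φ hφ j p q =>
      ((hφ.comp (Γ.continuous_pt j)).continuousOn.mul (Γ.contOn_form j p q)).intervalIntegrable_of_Icc
        zero_le_one
    have hrew : ∀ j, ∫ t in (0 : ℝ)..1, g j t = (∫ t in (0 : ℝ)..1, hc j t).re := by
      intro j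
      have i1 := hii (fun _ => 1) continuous_const j u u
      have i2 := hii (fun _ => 1) continuous_const j a a
      have i3 := hii (fun _ => 1) continuous_const j b b
      have i4 := hii (fun z => P.eval z ^ n) (P.continuous.pow n) j u a
      have i5 := hii (fun z => P.eval z ^ (n + 1)) (P.continuous.pow (n + 1)) j u b
      have i6 := hii (fun z => P.eval z ^ 1) (P.continuous.pow 1) j a b
      have hint : IntervalIntegrable (hc j) volume 0 1 :=
        (((((i1.const_mul _).add i2).add i3).add (i4.const_mul _)).sub (i5.const_mul _)).sub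
          (i6.const_mul _)
      have := Complex.reCLM.intervalIntegral_comp_comm hint
      simp only [Complex.reCLM_apply] at this
      rw [← this]
      refine intervalIntegral.integral_congr fun t _ => ?_
      simp [g, hc, ← Complex.ofReal_pow, mul_sub, mul_assoc]
      ring
    have hsum : ∑ j ∈ Finset.range Γ.num, ∫ t in (0 : ℝ)..1, hc j t
        = (k : ℂ) ^ 2 * Γ.total (fun _ => 1) u u + Γ.total (fun _ => 1) a a
          + Γ.total (fun _ => 1) b b
          + 2 * (k : ℂ) * Γ.total (fun z => P.eval z ^ n) u a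
          - 2 * (k : ℂ) * Γ.total (fun z => P.eval z ^ (n + 1)) u b
          - 2 * Γ.total (fun z => P.eval z ^ 1) a b := by
      simp only [total, Finset.mul_sum, ← Finset.sum_add_distrib, ← Finset.sum_sub_distrib]
      refine Finset.sum_congr rfl fun j _ => ?_
      have i1 := hii (fun _ => 1) continuous_const j u u
      have i2 := hii (fun _ => 1) continuous_const j a a
      have i3 := hii (fun _ => 1) continuous_const j b b
      have i4 := hii (fun z => P.eval z ^ n) (P.continuous.pow n) j u a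
      have i5 := hii (fun z => P.eval z ^ (n + 1)) (P.continuous.pow (n + 1)) j u b
      have i6 := hii (fun z => P.eval z ^ 1) (P.continuous.pow 1) j a b
      have j1 := i1.const_mul ((k : ℂ) ^ 2)
      have j4 := i4.const_mul (2 * (k : ℂ))
      have j5 := i5.const_mul (2 * (k : ℂ))
      have j6 := i6.const_mul (2 : ℂ)
      simp only [hc]
      rw [intervalIntegral.integral_sub ((((j1.add i2).add i3).add j4).sub j5) j6,
        intervalIntegral.integral_sub (((j1.add i2).add i3).add j4) j5,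
        intervalIntegral.integral_add ((j1.add i2).add i3) j4,
        intervalIntegral.integral_add (j1.add i2) i3, intervalIntegral.integral_add j1 i2]
      simp only [intervalIntegral.integral_const_mul]
    rw [Finset.sum_congr rfl fun j _ => hrew j, ← Complex.re_sum, hsum] at hg
    simp only [Γ.total_one, htot] at hg
    simp only [inner_self_eq_norm_sq_to_K, ha, hb] at hg
    simp [← Complex.ofReal_pow, mul_assoc] at hg
    rw [Complex.sub_re]
    rw [sub_le_iff_le_add, ← sub_le_iff_le_add', le_div_iff₀ hk]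
    nlinarith
  · intro n
    rw [hTn]
    exact hB _ fun j hj t ht => by rw [norm_pow]; exact pow_le_one₀ (norm_nonneg _) (hP j hj t ht)
  · intro n
    exact hB _ fun j hj t ht => by
      rw [Complex.norm_conj, norm_pow]; exact pow_le_one₀ (norm_nonneg _) (hP j hj t ht)

end Contour

end Vale.Agent.P123
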