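import Mathlib

open ContinuousLinearMap Filter Topology

namespace Vale.Agent.P123

variable {F : Type*} [NormedAddCommGroup F] [InnerProductSpace ℂ F] [CompleteSpace F]

/-- The algebraic heart of the proof: no singular value of `T` exceeds `2`. -/
theorem core_contradiction (T : F →L[ℂ] F) (S G : ℕ → F →L[ℂ] F) (B : ℝ)
    (hcomm : ∀ n, Commute T (G n))
    (hS : ∀ n u v, inner ℂ v (S n u) = inner ℂ v ((T ^ n) u) + inner ℂ (G n v) u)
    (hpos : ∀ n u x y, ‖x‖ = 1 → ‖y‖ = 1 → ∀ k : ℝ, 0 < k →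
      - (k * ‖u‖ ^ 2) - (2 - (inner ℂ y (S 1 x)).re) / k
        ≤ (inner ℂ x (S n u) - inner ℂ y (S (n + 1) u)).re)
    (hT : ∀ n, ‖T ^ n‖ ≤ B) (hG : ∀ n, ‖G n‖ ≤ B)
    (x y : F) (hx : ‖x‖ = 1) (hy : ‖y‖ = 1) (M : ℝ) (hM : 2 < M)
    (hTx : T x = (M : ℂ) • y) (hTy : adjoint T y = (M : ℂ) • x) : False := by
  have hM0 : (M : ℂ) ≠ 0 := by exact_mod_cast (by linarith : M ≠ 0)
  let u : ℕ → F := fun n => adjoint (T ^ n) x
  let a : ℕ → ℝ := fun n => (inner ℂ (G n x) (u n)).re
  have hu : ∀ n, u (n + 1) = adjoint T (u n) := by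
    intro n
    show adjoint (T ^ (n + 1)) x = adjoint T (adjoint (T ^ n) x)
    rw [pow_succ, mul_def, adjoint_comp]; rfl
  have hxS : ∀ n, (inner ℂ x (S n (u n))).re = ‖u n‖ ^ 2 + a n := by
    intro n
    rw [hS, ← adjoint_inner_left (T ^ n)]
    simp only [Complex.add_re, a]
    congr 1
    exact (inner_self_eq_norm_sq (𝕜 := ℂ) (u n))
  have hyS : ∀ n, (inner ℂ y (S (n + 1) (u n))).re = M * ‖u n‖ ^ 2 + a (n + 1) / M := by
    intro n
    have h1 : inner ℂ y ((T ^ (n + 1)) (u n)) = (M : ℂ) * inner ℂ (u n) (u n) := by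
      rw [pow_succ', mul_def, comp_apply, ← adjoint_inner_left, hTy, inner_smul_left,
        ← adjoint_inner_left (T ^ n)]
      simp [u]
    have h2 : G (n + 1) y = (M : ℂ)⁻¹ • T (G (n + 1) x) := by
      have := congrArg (fun L : F →L[ℂ] F => L x) (hcomm (n + 1)).eq
      simp only [mul_def, comp_apply] at this
      rw [this, hTx, map_smul, smul_smul, inv_mul_cancel₀ hM0, one_smul]
    rw [hS, h1, h2, inner_smul_left, ← adjoint_inner_right T (G (n + 1) x) (u n), ← hu]
    rw [inner_self_eq_norm_sq_to_K]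
    simp only [Complex.add_re, a, map_inv₀, Complex.conj_ofReal]
    simp only [← Complex.ofReal_inv, Complex.re_ofReal_mul]
    simp [div_eq_inv_mul, ← Complex.ofReal_pow]
  have hu0 : u 0 = x := by
    show adjoint (T ^ 0) x = x
    rw [pow_zero, one_def, adjoint_id, id_apply]
  set w := 2 - M - a 1 / M with hwdef
  have hw : (2 - (inner ℂ y (S 1 x)).re) = w := by
    have := hyS 0
    rw [hu0, hx] at this
    simp only [zero_add] at this
    rw [this, hwdef]; ring
  have hw0 : 0 ≤ w := by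
    have := hpos 0 0 x y hx hy 1 one_pos
    simp [hw] at this
    linarith
  have hM1 : 0 < M - 1 := by linarith
  have step : ∀ n, a (n + 1) / M - w / (M - 1) ≤ a n := by
    intro n
    have := hpos n (u n) x y hx hy (M - 1) hM1
    rw [hw, Complex.sub_re, hxS, hyS] at this
    linarith
  set C := w / (M - 1) * M / (M - 1) with hC
  let b : ℕ → ℝ := fun n => a n + C
  have hb : ∀ n, b (n + 1) / M ≤ b n := by
    intro n
    have := step n
    have e : C / M = C - w / (M - 1) := by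
      rw [hC]; field_simp; ring
    simp only [b, add_div, e]
    linarith
  have hbk : ∀ k, b (1 + k) / M ^ k ≤ b 1 := by
    intro k
    induction k with
    | zero => simp
    | succ k ih =>
      refine le_trans ?_ ih
      have := hb (1 + k)
      rw [← add_assoc, pow_succ', ← div_div]
      gcongr
  have hlow : ∀ n, -(B * B) ≤ b n := by
    intro n
    have hC0 : 0 ≤ C := by positivity
    have hun : ‖u n‖ ≤ B := by
      calc ‖u n‖ ≤ ‖adjoint (T ^ n)‖ * ‖x‖ := le_opNorm _ _
        _ ≤ B := by simpa [hx] using hT n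
    have hgn : ‖G n x‖ ≤ B := by
      calc ‖G n x‖ ≤ ‖G n‖ * ‖x‖ := le_opNorm _ _
        _ ≤ B := by simpa [hx] using hG n
    have h := (Complex.abs_re_le_norm (inner ℂ (G n x) (u n))).trans (norm_inner_le_norm _ _)
    have h2 : ‖G n x‖ * ‖u n‖ ≤ B * B :=
      mul_le_mul hgn hun (norm_nonneg _) ((norm_nonneg _).trans hgn)
    have := neg_abs_le (a n)
    simp only [b, a] at *
    linarith
  have hb1 : 0 ≤ b 1 := by
    have lim : Tendsto (fun k : ℕ => -(B * B) * (M⁻¹) ^ k) atTop (𝓝 0) := by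
      simpa using (tendsto_pow_atTop_nhds_zero_of_lt_one (by positivity : (0 : ℝ) ≤ M⁻¹)
        (inv_lt_one_of_one_lt₀ (by linarith))).const_mul (-(B * B))
    refine le_of_tendsto lim (Eventually.of_forall fun k => ?_)
    refine le_trans ?_ (hbk k)
    rw [inv_pow, ← div_eq_mul_inv]
    gcongr
    exact hlow _
  have h1 : 0 ≤ a 1 + w / (M - 1) * M / (M - 1) := hb1
  rw [div_mul_eq_mul_div, div_div, ← sub_neg_eq_add, sub_nonneg, ← neg_div,
    div_le_iff₀ (by positivity)] at h1
  have hwM : w * M = 2 * M - M ^ 2 - a 1 := by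
    rw [hwdef]; field_simp
  nlinarith [mul_nonneg hw0 (by linarith : (0 : ℝ) ≤ M), mul_pos (by linarith : (0:ℝ) < M) (by linarith : 0 < M - 2)]

end Vale.Agent.P123
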