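import Mathlib

open ComplexConjugate Set

namespace Vale.Agent.P123

variable {H : Type*} [NormedAddCommGroup H] [InnerProductSpace ℂ H]

/-- The numerical range `W(A) = {⟪A x, x⟫ : ‖x‖ = 1}`, in Mathlib's convention that the inner
product is linear in its second argument. -/
def numRange (A : H →L[ℂ] H) : Set ℂ := {w | ∃ x : H, ‖x‖ = 1 ∧ inner ℂ x (A x) = w}

lemma numRange_le (A : H →L[ℂ] H) {w : ℂ} (hw : w ∈ numRange A) : ‖w‖ ≤ ‖A‖ := by
  obtain ⟨x, hx, rfl⟩ := hw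
  refine (norm_inner_le_norm _ _).trans ?_
  have := A.le_opNorm x
  rw [hx] at *
  linarith

lemma numRange_nonempty [Nontrivial H] (A : H →L[ℂ] H) : (numRange A).Nonempty := by
  obtain ⟨x, hx⟩ := exists_ne (0 : H)
  exact ⟨_, (‖x‖⁻¹ : ℂ) • x, norm_smul_inv_norm hx, rfl⟩

lemma exists_phase (z : ℂ) : ∃ l : ℂ, ‖l‖ = 1 ∧ (l * z).im = 0 := by
  refine ⟨Complex.exp ((-Complex.arg z : ℝ) * Complex.I), Complex.norm_exp_ofReal_mul_I _, ?_⟩
  conv_lhs => arg 1; arg 2; rw [← Complex.norm_mul_exp_arg_mul_I z]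
  rw [mul_left_comm, ← Complex.exp_add]
  simp

/-- The Toeplitz–Hausdorff theorem. -/
theorem numRange_convex (A : H →L[ℂ] H) : Convex ℝ (numRange A) := by
  intro a ha b hb μ ν hμ hν hμν
  obtain ⟨x, hx, rfl⟩ := ha
  obtain ⟨y, hy, rfl⟩ := hb
  set a := inner ℂ x (A x) with ha'
  set b := inner ℂ y (A y) with hb'
  have hμ' : μ = 1 - ν := by linarith
  rcases eq_or_ne a b with hab | hab
  · refine ⟨x, hx, ?_⟩
    rw [← hab, ← add_smul, hμν, one_smul]
  have hba : b - a ≠ 0 := sub_ne_zero.2 hab.symm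
  set B : H →L[ℂ] H := (b - a)⁻¹ • (A - a • 1) with hB
  have hBf : ∀ v, inner ℂ v (B v) = (b - a)⁻¹ * (inner ℂ v (A v) - a * (‖v‖ : ℂ) ^ 2) := by
    intro v
    simp [hB, inner_smul_right, inner_sub_right, inner_self_eq_norm_sq_to_K]
  have hBx : inner ℂ x (B x) = 0 := by rw [hBf, hx, ← ha']; simp
  have hBy : inner ℂ y (B y) = 1 := by
    rw [hBf, hy, ← hb']; simp [inv_mul_cancel₀ hba]
  obtain ⟨l, hl, him⟩ := exists_phase (inner ℂ x (B y) - conj (inner ℂ y (B x)))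
  set w : ℂ := l * inner ℂ x (B y) + conj l * inner ℂ y (B x) with hw
  have hwim : w.im = 0 := by
    rw [Complex.mul_im, Complex.sub_re, Complex.sub_im, Complex.conj_re, Complex.conj_im] at him
    simp only [hw, Complex.add_im, Complex.mul_im, Complex.conj_re, Complex.conj_im]
    linarith
  let v : ℝ → H := fun t => ((1 - t : ℝ) : ℂ) • x + ((t : ℂ) * l) • y
  have hvB : ∀ t : ℝ, inner ℂ (v t) (B (v t)) = ((t ^ 2 + t * (1 - t) * w.re : ℝ) : ℂ) := by
    intro t
    have hll : conj l * l = 1 := by rw [Complex.conj_mul', hl]; simp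
    have hwre : ((w.re : ℝ) : ℂ) = w := Complex.ext (by simp) (by simp [hwim])
    simp only [v, map_add, map_smul, inner_add_left, inner_add_right, inner_smul_left,
      inner_smul_right, hBx, hBy, map_mul, Complex.conj_ofReal]
    push_cast
    rw [hwre, hw]
    linear_combination ((t : ℂ) ^ 2) * hll
  have hv0 : ∀ t ∈ Icc (0 : ℝ) 1, v t ≠ 0 := by
    intro t ht h0
    rcases eq_or_ne t 0 with rfl | ht0
    · simp [v] at h0
      simp [h0] at hx
    apply hab
    have htl : ((t : ℂ) * l) ≠ 0 := by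
      refine mul_ne_zero (by exact_mod_cast ht0) ?_
      intro h; simp [h] at hl
    have hy' : y = (-((t : ℂ) * l)⁻¹ * ((1 - t : ℝ) : ℂ)) • x := by
      have h1 : ((t : ℂ) * l) • y = -(((1 - t : ℝ) : ℂ) • x) := eq_neg_of_add_eq_zero_right h0
      calc y = ((t : ℂ) * l)⁻¹ • (((t : ℂ) * l) • y) := (inv_smul_smul₀ htl y).symm
        _ = _ := by rw [h1, smul_neg, smul_smul, neg_mul, neg_smul]
    generalize -((t : ℂ) * l)⁻¹ * ((1 - t : ℝ) : ℂ) = c at hy'
    have hc : ‖c‖ = 1 := by rw [hy', norm_smul, hx, mul_one] at hy; exact hy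
    rw [hb', hy', map_smul, inner_smul_left, inner_smul_right, ← mul_assoc, Complex.conj_mul', hc]
    simp [ha']
  let g : ℝ → ℝ := fun t => (t ^ 2 + t * (1 - t) * w.re) / ‖v t‖ ^ 2
  have hg : ContinuousOn g (Icc 0 1) := by
    refine ContinuousOn.div (by fun_prop) (by fun_prop) fun t ht => ?_
    exact pow_ne_zero _ (norm_ne_zero_iff.2 (hv0 t ht))
  have hg0 : g 0 = 0 := by simp [g]
  have hg1 : g 1 = 1 := by simp [g, v, norm_smul, hl, hy]
  obtain ⟨t, ht, hgt⟩ := intermediate_value_Icc zero_le_one hg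
    (show ν ∈ Icc (g 0) (g 1) by rw [hg0, hg1]; exact ⟨hν, by linarith⟩)
  have hn : (‖v t‖ : ℂ) ≠ 0 := by simpa using hv0 t ht
  refine ⟨(‖v t‖⁻¹ : ℂ) • v t, norm_smul_inv_norm (hv0 t ht), ?_⟩
  have h2 : inner ℂ (v t) (A (v t)) = (‖v t‖ : ℂ) ^ 2 * (a + (b - a) * (ν : ℂ)) := by
    have h3 := hBf (v t)
    rw [hvB] at h3
    have h4 : ((g t : ℝ) : ℂ) = (ν : ℂ) := by rw [hgt]
    simp only [g] at h4
    push_cast at h4 h3
    rw [h3] at h4
    rw [← h4]
    field_simp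
    ring
  rw [map_smul, inner_smul_left, inner_smul_right, h2, map_inv₀, Complex.conj_ofReal,
    Complex.real_smul, Complex.real_smul, hμ']
  push_cast
  field_simp
  ring

end Vale.Agent.P123
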