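import Mathlib

open ComplexConjugate Set Complex
open scoped Interval

namespace Vale.Agent.P123

set_option maxHeartbeats 1000000 in
/-- A compact convex set is enclosed by a convex polygon staying within `ε` of it. -/
theorem exists_polygon (K : Set ℂ) (hKc : IsCompact K) (hKv : Convex ℝ K) (hKn : K.Nonempty)
    (ε : ℝ) (hε : 0 < ε) :
    ∃ (num : ℕ) (vtx nrm : ℕ → ℂ) (len : ℕ → ℝ),
      (∀ j, 0 ≤ len j) ∧ vtx num = vtx 0 ∧
      (∀ j, vtx (j + 1) - vtx j = I * nrm j * (len j : ℂ)) ∧
      (∀ j, ∀ t ∈ Icc (0 : ℝ) 1, ∀ z ∈ K,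
        (conj (nrm j) * z).re < (conj (nrm j) * (vtx j + (t : ℂ) * (vtx (j + 1) - vtx j))).re) ∧
      (∀ j, ∀ t ∈ Icc (0 : ℝ) 1, ∃ q ∈ K, dist (vtx j + (t : ℂ) * (vtx (j + 1) - vtx j)) q ≤ ε) ∧
      (∀ lam ∈ K, ∑ j ∈ Finset.range num, ∫ t in (0 : ℝ)..1,
        (vtx (j + 1) - vtx j) / (vtx j + (t : ℂ) * (vtx (j + 1) - vtx j) - lam)
          = 2 * Real.pi * I) := by
  obtain ⟨R, hR⟩ := hKc.isBounded.exists_norm_le
  have hR0 : 0 ≤ R := by obtain ⟨z, hz⟩ := hKn; exact (norm_nonneg z).trans (hR z hz)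
  set δ := ε / 4 with hδ
  have hδ0 : 0 < δ := by positivity
  obtain ⟨N, hN⟩ := exists_nat_ge (max 6 (16 * R * Real.pi / ε))
  have hN6 : (6 : ℝ) ≤ N := le_trans (le_max_left _ _) hN
  have hNR : 16 * R * Real.pi / ε ≤ N := le_trans (le_max_right _ _) hN
  set Δ := 2 * Real.pi / N with hΔ
  have hN0 : (0 : ℝ) < N := by linarith
  have hΔ0 : 0 < Δ := by positivity
  have hΔ3 : Δ ≤ Real.pi / 3 := by
    rw [hΔ, div_le_div_iff₀ hN0 (by norm_num)]; nlinarith [Real.pi_pos]
  set c := Real.cos Δ with hc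
  set s := Real.sin Δ with hs
  have hcs : c ^ 2 + s ^ 2 = 1 := Real.cos_sq_add_sin_sq Δ
  have hc2 : 1 / 2 ≤ c := by
    rw [hc, ← Real.cos_pi_div_three]
    exact Real.cos_le_cos_of_nonneg_of_le_pi hΔ0.le (by linarith [Real.pi_pos]) hΔ3
  have hs0 : 0 < s := Real.sin_pos_of_pos_of_lt_pi hΔ0 (by linarith [Real.pi_pos])
  have hsΔ : s ≤ Δ := Real.sin_le hΔ0.le
  let e : ℕ → ℂ := fun j => Complex.exp (((j : ℝ) * Δ : ℝ) * I)
  let ω : ℂ := (c : ℂ) + (s : ℂ) * I
  have hω : ω = Complex.exp ((Δ : ℂ) * I) := by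
    rw [Complex.exp_mul_I]; simp [ω, hc, hs, Complex.ofReal_cos, Complex.ofReal_sin]
  have he1 : ∀ j, e (j + 1) = e j * ω := by
    intro j; simp only [e, hω, ← Complex.exp_add]; congr 1; push_cast; ring
  have henorm : ∀ j, ‖e j‖ = 1 := fun j => Complex.norm_exp_ofReal_mul_I _
  have hee : ∀ j, conj (e j) * e j = 1 := by
    intro j; rw [Complex.conj_mul', henorm]; simp
  have hωω : conj ω * ω = 1 := by
    apply Complex.ext <;> simp [ω] <;> nlinarith
  have heN : ∀ j, e (j + N) = e j := by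
    intro j
    simp only [e]
    rw [show ((((j + N : ℕ) : ℝ) * Δ : ℝ) : ℂ) * I
        = (((j : ℝ) * Δ : ℝ) : ℂ) * I + 2 * Real.pi * I by
      have : ((N : ℝ) : ℂ) ≠ 0 := by exact_mod_cast hN0.ne'
      simp only [hΔ]; push_cast at *; field_simp]
    rw [Complex.exp_add, Complex.exp_two_pi_mul_I, mul_one]
  have hmax : ∀ w : ℂ, ∃ p ∈ K, ∀ z ∈ K, (conj w * z).re ≤ (conj w * p).re := by
    intro w
    obtain ⟨p, hp, hp'⟩ := hKc.exists_isMaxOn hKn
      (Complex.continuous_re.comp (continuous_const.mul continuous_id (f := fun _ : ℂ => conj w))).continuousOn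
    exact ⟨p, hp, fun z hz => hp' hz⟩
  choose P hP hPm using hmax
  let h : ℕ → ℝ := fun j => (conj (e j) * P (e j)).re + δ
  have hle : ∀ j, ∀ z ∈ K, (conj (e j) * z).re ≤ h j - δ := by
    intro j z hz; simpa [h] using hPm (e j) z hz
  let T : ℕ → ℝ := fun j => (h (j + 1) - c * h j) / s
  let v : ℕ → ℂ := fun j => e j * ((h j : ℂ) + (T j : ℂ) * I)
  let L : ℕ → ℝ := fun j => T (j + 1) - c * T j + s * h j
  have hT : ∀ j, c * h j + s * T j = h (j + 1) := by
    intro j; simp only [T]; field_simp; ring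
  have hshift : ∀ j z, conj (e (j + 1)) * z = conj ω * (conj (e j) * z) := by
    intro j z; rw [he1, map_mul]; ring
  have hA : ∀ j, conj (e (j + 1)) * v j = conj ω * ((h j : ℂ) + (T j : ℂ) * I) := by
    intro j
    rw [hshift]; simp only [v]
    rw [← mul_assoc (conj (e j)), hee, one_mul]
  have hB : ∀ j, conj (e j) * v j = (h j : ℂ) + (T j : ℂ) * I := by
    intro j; simp only [v]; rw [← mul_assoc, hee, one_mul]
  have hd : ∀ j, conj (e (j + 1)) * (v (j + 1) - v j) = I * (L j : ℂ) := by
    intro j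
    rw [mul_sub, hA, hB]
    apply Complex.ext <;> simp [ω, L] <;> linarith [hT j]
  have hstep : ∀ j, v (j + 1) - v j = I * e (j + 1) * (L j : ℂ) := by
    intro j
    calc v (j + 1) - v j = (conj (e (j + 1)) * e (j + 1)) * (v (j + 1) - v j) := by rw [hee, one_mul]
      _ = e (j + 1) * (conj (e (j + 1)) * (v (j + 1) - v j)) := by ring
      _ = _ := by rw [hd]; ring
  have hre : ∀ j (t : ℝ), (conj (e (j + 1)) * (v j + (t : ℂ) * (v (j + 1) - v j))).re = h (j + 1) := by
    intro j t
    rw [mul_add, mul_left_comm _ (t : ℂ), hd, hA]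
    simp [ω]
    exact hT j
  have hL : ∀ j, 0 ≤ L j := by
    intro j
    have key : s * L j = h (j + 2) + h j - 2 * c * h (j + 1) := by
      simp only [L]
      linear_combination (hT (j + 1)) - c * (hT j) + h j * hcs
    set p := P (e (j + 1)) with hp
    have h0 := hle j p (hP _)
    have h2 := hle (j + 2) p (hP _)
    have h1 : (conj (e (j + 1)) * p).re = h (j + 1) - δ := by simp [h, hp]
    have hsum : (conj (e j) * p).re + (conj (e (j + 2)) * p).re
        = 2 * c * (conj (e (j + 1)) * p).re := by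
      rw [hshift (j + 1), hshift j]
      have h3 : conj (e j) * p = ω * (conj (e (j + 1)) * p) := by
        rw [hshift, ← mul_assoc, mul_comm ω, hωω, one_mul]
      rw [← hshift j, h3]
      simp [ω]
      ring
    have hc1 : c ≤ 1 := Real.cos_le_one Δ
    rw [h1] at hsum
    have : 0 ≤ s * L j := by rw [key]; nlinarith [mul_nonneg (sub_nonneg.2 hc1) hδ0.le]
    nlinarith
  have hnear : ∀ j, ∃ q ∈ K, dist (v j) q ≤ ε := by
    intro j
    set p := conj (e j) * P (e j) with hp
    set p' := conj (e j) * P (e (j + 1)) with hp'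
    have hX : p.re = h j - δ := by simp [h, hp]
    have hX' : p'.re ≤ h j - δ := hle j _ (hP _)
    have hY' : c * p'.re + s * p'.im = h (j + 1) - δ := by
      have : (conj (e (j + 1)) * P (e (j + 1))).re = h (j + 1) - δ := by simp [h]
      rw [hshift, ← hp'] at this
      simpa [ω] using this
    have hY : c * p.re + s * p.im ≤ h (j + 1) - δ := by
      have := hle (j + 1) _ (hP (e j))
      rw [hshift, ← hp] at this
      simpa [ω] using this
    set τ := T j - δ * (1 - c) / s with hτ
    have hτ' : c * (h j - δ) + s * τ = h (j + 1) - δ := by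
      have : s * (δ * (1 - c) / s) = δ * (1 - c) := by field_simp
      rw [hτ, mul_sub]; linarith [hT j]
    have ha : p.im ≤ τ := le_of_mul_le_mul_left (by rw [hX] at hY; linarith) hs0
    have hb : τ ≤ p'.im := le_of_mul_le_mul_left
      (by linarith [mul_le_mul_of_nonneg_left hX' (by linarith : (0 : ℝ) ≤ c)]) hs0
    obtain ⟨θ, hθ0, hθ1, hθ⟩ : ∃ θ : ℝ, 0 ≤ θ ∧ θ ≤ 1 ∧ (1 - θ) * p.im + θ * p'.im = τ := by
      have hmem : τ ∈ segment ℝ p.im p'.im := by
        rw [segment_eq_Icc (ha.trans hb)]; exact ⟨ha, hb⟩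
      obtain ⟨a, b, a0, b0, hab, h⟩ := hmem
      refine ⟨b, b0, by linarith, ?_⟩
      have : a = 1 - b := by linarith
      simpa [this] using h
    refine ⟨(1 - θ) • P (e j) + θ • P (e (j + 1)), hKv (hP _) (hP _) (by linarith) hθ0 (by ring), ?_⟩
    have hmul : v j - ((1 - θ) • P (e j) + θ • P (e (j + 1)))
        = e j * (((h j : ℂ) + (T j : ℂ) * I) - (((1 - θ : ℝ) : ℂ) * p + (θ : ℂ) * p')) := by
      simp only [v, hp, hp', Complex.real_smul]
      linear_combination ((((1 - θ : ℝ) : ℂ) * P (e j) + (θ : ℂ) * P (e (j + 1))) * hee j)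
    rw [dist_eq_norm, hmul, norm_mul, henorm, one_mul]
    refine (Complex.norm_le_abs_re_add_abs_im _).trans ?_
    simp only [sub_re, add_re, mul_re, ofReal_re, ofReal_im, I_re, I_im, sub_im, add_im, mul_im,
      mul_zero, zero_mul, sub_zero, add_zero, mul_one, zero_add]
    have h1c : δ * (1 - c) / s ≤ δ := by
      rw [div_le_iff₀ hs0]
      refine mul_le_mul_of_nonneg_left ?_ hδ0.le
      nlinarith [Real.cos_le_one Δ, Real.sin_le_one Δ]
    have h1c' : 0 ≤ δ * (1 - c) / s := by
      have := Real.cos_le_one Δ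
      positivity
    have hY2R : p'.im - p.im ≤ 2 * R := by
      have a1 := Complex.abs_im_le_norm p
      have a2 := Complex.abs_im_le_norm p'
      have b1 : ‖p‖ ≤ R := by rw [hp, norm_mul, Complex.norm_conj, henorm, one_mul]; exact hR _ (hP _)
      have b2 : ‖p'‖ ≤ R := by rw [hp', norm_mul, Complex.norm_conj, henorm, one_mul]; exact hR _ (hP _)
      linarith [neg_abs_le p.im, le_abs_self p'.im]
    have hdx : c * (p.re - p'.re) ≤ Δ * (2 * R) := by
      have : c * (p.re - p'.re) = s * (p'.im - τ) := by rw [hX]; linarith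
      rw [this]
      calc s * (p'.im - τ) ≤ s * (2 * R) := mul_le_mul_of_nonneg_left (by linarith) hs0.le
        _ ≤ Δ * (2 * R) := mul_le_mul_of_nonneg_right hsΔ (by linarith)
    have hΔR : Δ * (4 * R) ≤ ε / 2 := by
      rw [hΔ, div_mul_eq_mul_div, div_le_iff₀ hN0]
      rw [div_le_iff₀ hε] at hNR
      nlinarith
    have hdx2 : p.re - p'.re ≤ ε / 2 := by nlinarith
    have hdx3 : 0 ≤ p.re - p'.re := by linarith
    have h4 : θ * (p.re - p'.re) ≤ ε / 2 := by nlinarith
    have h5 : 0 ≤ θ * (p.re - p'.re) := mul_nonneg hθ0 hdx3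
    have e1 : h j - ((1 - θ) * p.re + θ * p'.re) = δ + θ * (p.re - p'.re) := by rw [hX]; ring
    have e2 : T j - ((1 - θ) * p.im + θ * p'.im) = δ * (1 - c) / s := by rw [hθ, hτ]; ring
    rw [e1, e2, abs_of_nonneg (by linarith), abs_of_nonneg h1c']
    linarith
  refine ⟨N, v, fun j => e (j + 1), L, hL, ?_, hstep, ?_, ?_, ?_⟩
  · have a0 : e N = e 0 := by simpa using heN 0
    have a1 : e (N + 1) = e 1 := by simpa [add_comm] using heN 1
    simp only [v, T, h, a0, a1, zero_add]
  · intro j t _ z hz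
    rw [hre]
    linarith [hle (j + 1) z hz]
  · intro j t ht
    obtain ⟨q, hq, hq'⟩ := hnear j
    obtain ⟨r, hr, hr'⟩ := hnear (j + 1)
    refine ⟨(1 - t) • q + t • r, hKv hq hr (by linarith [ht.2]) ht.1 (by ring), ?_⟩
    rw [dist_eq_norm] at *
    rw [show v j + (t : ℂ) * (v (j + 1) - v j) - ((1 - t) • q + t • r)
        = (1 - t) • (v j - q) + t • (v (j + 1) - r) by
      simp only [Complex.real_smul]; push_cast; ring]
    refine (norm_add_le _ _).trans ?_
    rw [norm_smul, norm_smul, Real.norm_of_nonneg (by linarith [ht.2]), Real.norm_of_nonneg ht.1]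
    nlinarith [ht.1, ht.2]
  · intro lam hlam
    let φ : ℕ → ℂ := fun j => Complex.log (conj (e j) * (v j - lam))
    have hu : ∀ j, 0 < (conj (e j) * (v j - lam)).re := by
      intro j
      rw [mul_sub, hB]
      have h3 := hle j lam hlam
      simp at h3 ⊢
      linarith
    have hedge : ∀ j (t : ℝ), 0 < (conj (e (j + 1)) * (v j + (t : ℂ) * (v (j + 1) - v j) - lam)).re := by
      intro j t
      rw [mul_sub, sub_re, hre]
      linarith [hle (j + 1) lam hlam]
    have hrot : ∀ j, Complex.log (conj (e (j + 1)) * (v j - lam)) = φ j - (Δ : ℂ) * I := by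
      intro j
      have hu' := hu j
      have hne : conj (e j) * (v j - lam) ≠ 0 := by
        intro h0; simp [h0] at hu'
      have harg := Complex.abs_arg_lt_pi_div_two_iff.2 (Or.inl hu')
      rw [abs_lt] at harg
      have hconj : conj ω = Complex.exp (-((Δ : ℂ) * I)) := by
        rw [hω, ← Complex.exp_conj]; simp
      rw [hshift, hconj, show Complex.exp (-((Δ : ℂ) * I)) * (conj (e j) * (v j - lam))
          = Complex.exp (φ j - (Δ : ℂ) * I) by
        rw [Complex.exp_sub, Complex.exp_log hne, Complex.exp_neg]; ring]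
      apply Complex.log_exp
      · simp only [φ, sub_im, Complex.log_im, mul_im, ofReal_re, ofReal_im, I_re, I_im]
        linarith
      · simp only [φ, sub_im, Complex.log_im, mul_im, ofReal_re, ofReal_im, I_re, I_im]
        linarith
    have hint : ∀ j, ∫ t in (0 : ℝ)..1, (v (j + 1) - v j) / (v j + (t : ℂ) * (v (j + 1) - v j) - lam)
        = φ (j + 1) - φ j + (Δ : ℂ) * I := by
      intro j
      have hne : ∀ t : ℝ, v j + (t : ℂ) * (v (j + 1) - v j) - lam ≠ 0 := by
        intro t h0
        have := hedge j t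
        simp [h0] at this
      have hd' : ∀ t ∈ [[(0 : ℝ), 1]], HasDerivAt
          (fun t : ℝ => Complex.log (conj (e (j + 1)) * (v j + (t : ℂ) * (v (j + 1) - v j) - lam)))
          ((v (j + 1) - v j) / (v j + (t : ℂ) * (v (j + 1) - v j) - lam)) t := by
        intro t _
        have h1 : HasDerivAt
            (fun t : ℝ => conj (e (j + 1)) * (v j + (t : ℂ) * (v (j + 1) - v j) - lam))
            (conj (e (j + 1)) * (v (j + 1) - v j)) t := by
          simpa using ((((hasDerivAt_id t).ofReal_comp.mul_const (v (j + 1) - v j)).const_add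
            (v j)).sub_const lam).const_mul (conj (e (j + 1)))
        refine (h1.clog_real (Or.inl (hedge j t))).congr_deriv ?_
        exact mul_div_mul_left _ _ (left_ne_zero_of_mul_eq_one (hee (j + 1)))
      have hcont : Continuous fun t : ℝ =>
          (v (j + 1) - v j) / (v j + (t : ℂ) * (v (j + 1) - v j) - lam) :=
        continuous_const.div (by fun_prop) hne
      rw [intervalIntegral.integral_eq_sub_of_hasDerivAt hd' (hcont.intervalIntegrable _ _)]
      simp only [Complex.ofReal_one, Complex.ofReal_zero, one_mul, zero_mul, add_zero,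
        add_sub_cancel, hrot j]
      simp only [φ]
      ring
    rw [Finset.sum_congr rfl fun j _ => hint j, Finset.sum_add_distrib, Finset.sum_range_sub φ]
    have a0 : e N = e 0 := by simpa using heN 0
    have a1 : e (N + 1) = e 1 := by simpa [add_comm] using heN 1
    have hφ : φ N = φ 0 := by simp only [φ, v, T, h, a0, a1, zero_add]
    rw [hφ, sub_self, zero_add, Finset.sum_const, Finset.card_range, nsmul_eq_mul]
    have : ((N : ℝ) : ℂ) ≠ 0 := by exact_mod_cast hN0.ne'
    simp only [hΔ]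
    push_cast at *
    field_simp

end Vale.Agent.P123
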