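import Vale.Agent.P123.Contour
import Vale.Agent.P123.Polygon
import Vale.Agent.P123.NumericalRange

open ContinuousLinearMap Set ComplexConjugate Polynomial

namespace Vale.Agent.P123

variable {H : Type*} [NormedAddCommGroup H] [InnerProductSpace ℂ H]

lemma norm_eval_le_sSup (A : H →L[ℂ] H) (P : ℂ[X]) {z : ℂ} (hz : z ∈ numRange A) :
    ‖P.eval z‖ ≤ sSup ((fun z => ‖P.eval z‖) '' numRange A) := by
  have hb : BddAbove ((fun z => ‖P.eval z‖) '' Metric.closedBall (0 : ℂ) ‖A‖) :=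
    (isCompact_closedBall _ _).bddAbove_image P.continuous.norm.continuousOn
  refine le_csSup (hb.mono (image_mono ?_)) (mem_image_of_mem _ hz)
  intro w hw
  simpa using numRange_le A hw

/-- Finite-dimensional case, against a compact convex set containing the numerical range. -/
theorem norm_aeval_finite {F : Type*} [NormedAddCommGroup F] [InnerProductSpace ℂ F]
    [FiniteDimensional ℂ F] (A : F →L[ℂ] F) (K : Set ℂ) (hKc : IsCompact K) (hKv : Convex ℝ K)
    (hKn : K.Nonempty) (hAK : numRange A ⊆ K) (P : ℂ[X]) (r : ℝ)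
    (hP : ∀ z ∈ K, ‖P.eval z‖ < r) : ‖aeval A P‖ ≤ 2 * r := by
  obtain ⟨z₀, hz₀⟩ := hKn
  have hr : 0 < r := lt_of_le_of_lt (norm_nonneg _) (hP z₀ hz₀)
  obtain ⟨ε, hε, hsub⟩ := hKc.exists_cthickening_subset_open
    (isOpen_lt P.continuous.norm continuous_const) hP
  obtain ⟨num, vtx, nrm, len, h1, h2, h3, h4, h5, h6⟩ :=
    exists_polygon K hKc hKv ⟨z₀, hz₀⟩ ε hε
  let Γ : Contour A :=
    { num := num, vtx := vtx, nrm := nrm, len := len, len_nonneg := h1, closed := h2, step := h3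
      sep := fun j t ht x hx => h4 j t ht _ (hAK ⟨x, hx, rfl⟩)
      wind := fun lam ⟨x, hx, hAx⟩ => h6 lam (hAK ⟨x, hx, by
        rw [hAx, inner_smul_right, inner_self_eq_norm_sq_to_K, hx]; simp⟩) }
  have hQ : ∀ j < Γ.num, ∀ t ∈ Icc (0 : ℝ) 1, ‖(C ((r : ℂ)⁻¹) * P).eval (Γ.pt j t)‖ ≤ 1 := by
    intro j _ t ht
    obtain ⟨q, hq, hd⟩ := h5 j t ht
    have := hsub (Metric.mem_cthickening_of_dist_le _ q ε K hq hd)
    rw [eval_mul, eval_C, norm_mul, norm_inv, Complex.norm_real, Real.norm_of_nonneg hr.le,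
      inv_mul_le_iff₀ hr, mul_one]
    exact le_of_lt this
  have := Γ.norm_aeval_le_two _ hQ
  rw [map_mul, aeval_C, ← Algebra.smul_def, norm_smul, norm_inv, Complex.norm_real,
    Real.norm_of_nonneg hr.le, inv_mul_le_iff₀ hr] at this
  linarith

/-- Crouzeix's conjecture: the numerical range is a `2`-spectral set. -/
theorem norm_aeval_le_two_mul_sSup [CompleteSpace H] [Nontrivial H] (A : H →L[ℂ] H) (P : ℂ[X]) :
    ‖aeval A P‖ ≤ 2 * sSup ((fun z => ‖P.eval z‖) '' numRange A) := by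
  set r := sSup ((fun z => ‖P.eval z‖) '' numRange A) with hr
  obtain ⟨z₀, hz₀⟩ := numRange_nonempty A
  have hr0 : 0 ≤ r := (norm_nonneg _).trans (norm_eval_le_sSup A P hz₀)
  refine (aeval A P).opNorm_le_bound (by positivity) fun x => ?_
  set d := P.natDegree with hd
  let V : Submodule ℂ H := Submodule.span ℂ (Set.range fun k : Fin (d + 1) => (A ^ (k : ℕ)) x)
  have : FiniteDimensional ℂ V := FiniteDimensional.span_of_finite ℂ (Set.finite_range _)
  let B : V →L[ℂ] V := V.orthogonalProjection.comp (A.comp V.subtypeL)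
  have hmem : ∀ k ≤ d, (A ^ k) x ∈ V := fun k hk =>
    Submodule.subset_span ⟨⟨k, by omega⟩, rfl⟩
  have hxV : x ∈ V := by simpa using hmem 0 (Nat.zero_le _)
  have hpow : ∀ k ≤ d, (((B ^ k) ⟨x, hxV⟩ : V) : H) = (A ^ k) x := by
    intro k
    induction k with
    | zero => intro _; simp
    | succ k ih =>
      intro hk
      have e := ih (by omega)
      have hAV : A ((A ^ k) x) ∈ V := by
        have := hmem (k + 1) hk
        rwa [pow_succ'] at this
      have e2 : (B ^ (k + 1)) ⟨x, hxV⟩ = B ((B ^ k) ⟨x, hxV⟩) := by rw [pow_succ']; rfl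
      have e3 : (A ^ (k + 1)) x = A ((A ^ k) x) := by rw [pow_succ']; rfl
      rw [e2, e3]
      simp only [B, ContinuousLinearMap.comp_apply, Submodule.subtypeL_apply, e]
      exact congrArg Subtype.val (V.orthogonalProjection_mem_subspace_eq_self ⟨_, hAV⟩)
  have hcl : numRange B ⊆ numRange A := by
    rintro w ⟨v, hv, rfl⟩
    refine ⟨(v : H), by simpa using hv, ?_⟩
    simp [B, ContinuousLinearMap.comp_apply]
  have hcomm : (((aeval B P) ⟨x, hxV⟩ : V) : H) = (aeval A P) x := by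
    rw [aeval_eq_sum_range, aeval_eq_sum_range]
    simp only [sum_apply, smul_apply, Submodule.coe_sum, Submodule.coe_smul]
    refine Finset.sum_congr rfl fun k hk => ?_
    rw [hpow k (by rw [Finset.mem_range] at hk; omega)]
  have hKb : Bornology.IsBounded (numRange A) :=
    (Metric.isBounded_closedBall (x := (0 : ℂ)) (r := ‖A‖)).subset fun w hw => by
      simpa using numRange_le A hw
  have hK : ∀ z ∈ closure (numRange A), ‖P.eval z‖ ≤ r :=
    closure_minimal (fun z hz => norm_eval_le_sSup A P hz)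
      (isClosed_le P.continuous.norm continuous_const)
  refine le_of_forall_pos_le_add fun η hη => ?_
  set η' := η / (2 * (‖x‖ + 1)) with hη'
  have hη0 : 0 < η' := by positivity
  have := norm_aeval_finite B (closure (numRange A)) hKb.isCompact_closure
    (numRange_convex A).closure ⟨z₀, subset_closure hz₀⟩ (hcl.trans subset_closure) P (r + η')
    (fun z hz => lt_of_le_of_lt (hK z hz) (by linarith))
  calc ‖(aeval A P) x‖ = ‖(aeval B P) ⟨x, hxV⟩‖ := by rw [← hcomm]; rfl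
    _ ≤ ‖aeval B P‖ * ‖x‖ := (aeval B P).le_opNorm _
    _ ≤ 2 * (r + η') * ‖x‖ := mul_le_mul_of_nonneg_right this (norm_nonneg _)
    _ ≤ 2 * r * ‖x‖ + η := by
      have h7 : η' * (2 * (‖x‖ + 1)) = η := div_mul_cancel₀ _ (by positivity)
      nlinarith [norm_nonneg x]

universe u

/-- The constant `2` cannot be lowered. -/
theorem two_le_of_bound (c : ℝ)
    (h : ∀ (H : Type u) [NormedAddCommGroup H] [InnerProductSpace ℂ H] [CompleteSpace H]
      [Nontrivial H] (A : H →L[ℂ] H) (P : ℂ[X]),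
      ‖aeval A P‖ ≤ c * sSup ((fun z => ‖P.eval z‖) '' numRange A)) : 2 ≤ c := by
  let E := EuclideanSpace ℂ (ULift.{u} (Fin 2))
  let e : ULift.{u} (Fin 2) → E := fun i => EuclideanSpace.single i 1
  let A : E →L[ℂ] E := (EuclideanSpace.proj (ULift.up (1 : Fin 2))).smulRight (e ⟨0⟩)
  have hA : ∀ x : E, A x = x.ofLp ⟨1⟩ • e ⟨0⟩ := fun x => rfl
  have hnorm : ∀ i, ‖e i‖ = 1 := fun i => (PiLp.norm_single (p := 2) (fun _ : ULift.{u} (Fin 2) => ℂ) i (1 : ℂ)).trans norm_one
  have : Nontrivial E := ⟨e ⟨0⟩, 0, by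
    intro h0
    have := congrArg norm h0
    rw [hnorm, norm_zero] at this
    exact one_ne_zero this⟩
  have hne : (1 : ℝ) ≤ ‖A‖ := by
    have := A.le_opNorm (e ⟨1⟩)
    rw [hA, norm_smul, hnorm, hnorm] at this
    simpa [e] using this
  have hW : ∀ w ∈ numRange A, ‖w‖ ≤ 1 / 2 := by
    rintro w ⟨x, hx, rfl⟩
    rw [hA, inner_smul_right, show inner ℂ x (e ⟨0⟩) = conj (x.ofLp ⟨0⟩) by
      simp only [e, E, EuclideanSpace.inner_single_right]; exact one_mul _, norm_mul,
      Complex.norm_conj]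
    have h2 : ‖x.ofLp ⟨0⟩‖ ^ 2 + ‖x.ofLp ⟨1⟩‖ ^ 2 = 1 := by
      have := EuclideanSpace.norm_sq_eq x
      rw [hx, ← Equiv.sum_comp Equiv.ulift.symm, Fin.sum_univ_two] at this
      simpa using this.symm
    nlinarith [sq_nonneg (‖x.ofLp ⟨0⟩‖ - ‖x.ofLp ⟨1⟩‖)]
  have hb := h E A X
  rw [aeval_X] at hb
  simp only [eval_X] at hb
  obtain ⟨z₀, hz₀⟩ := numRange_nonempty A
  have hs : sSup ((fun z => ‖z‖) '' numRange A) ≤ 1 / 2 :=
    csSup_le ⟨_, mem_image_of_mem _ hz₀⟩ (by rintro _ ⟨w, hw, rfl⟩; exact hW w hw)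
  have hs0 : 0 ≤ sSup ((fun z => ‖z‖) '' numRange A) := by
    refine (norm_nonneg z₀).trans ?_
    simpa using norm_eval_le_sSup A X hz₀
  by_contra hc
  push Not at hc
  nlinarith [mul_le_mul_of_nonneg_left hs (by norm_num : (0 : ℝ) ≤ 2),
    mul_le_mul_of_nonneg_right hc.le hs0]

end Vale.Agent.P123
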